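import Mathlib

/-!
The real-variable part of the propagation barrier for weighted stencils (P080): the concave
potential `-C + β (ρ - 1) - 4/3 (ρ √ρ - 1)`, its gain against the two quadratic step costs, the
absorption of the drift of the centre, and the choice of the radius.
-/

namespace Vale.Agent.P080.C1.Barrier

open Real

/-- The concave profile of the barrier. -/
noncomputable def prof (C β ρ : ℝ) : ℝ := -C + β * (ρ - 1) - 4 / 3 * (ρ * √ρ - 1)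

/-- Tangent bound for `t ↦ t √t`, with a quadratic surplus to the left. -/
theorem mul_sqrt_tangent {x y : ℝ} (hx : 0 < x) (hy : 0 ≤ y) :
    x * √x + 3 / 2 * √x * (y - x) ≤ y * √y ∧
    (y ≤ x → x * √x + 3 / 2 * √x * (y - x) + 3 / 8 * (y - x) ^ 2 / √x ≤ y * √y) := by
  obtain ⟨a, ha, rfl⟩ : ∃ a, 0 < a ∧ a ^ 2 = x := ⟨√x, sqrt_pos.2 hx, sq_sqrt hx.le⟩
  obtain ⟨b, hb, rfl⟩ : ∃ b, 0 ≤ b ∧ b ^ 2 = y := ⟨√y, sqrt_nonneg y, sq_sqrt hy⟩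
  rw [sqrt_sq ha.le, sqrt_sq hb]
  have key : b ^ 2 * b - (a ^ 2 * a + 3 / 2 * a * (b ^ 2 - a ^ 2)) =
      (b - a) ^ 2 * (b + a / 2) := by ring
  refine ⟨by nlinarith [mul_nonneg (sq_nonneg (b - a)) (by linarith : 0 ≤ b + a / 2)],
    fun h => ?_⟩
  have hba : b ≤ a := by nlinarith
  have h1 : 0 ≤ (b - a) ^ 2 * ((a - b) * (3 * b + a)) :=
    mul_nonneg (sq_nonneg _) (mul_nonneg (by linarith) (by linarith))
  have h2 : 3 / 8 * (b ^ 2 - a ^ 2) ^ 2 / a ≤ (b - a) ^ 2 * (b + a / 2) := by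
    rw [div_le_iff₀ ha]
    linarith
  linarith

/-- The profile lies below its tangents, with a quadratic surplus to the left. -/
theorem prof_tangent (C β : ℝ) {x y : ℝ} (hx : 0 < x) (hy : 0 ≤ y) :
    prof C β y ≤ prof C β x + (β - 2 * √x) * (y - x) ∧
    (y ≤ x → prof C β y ≤ prof C β x + (β - 2 * √x) * (y - x) - (y - x) ^ 2 / (2 * √x)) := by
  obtain ⟨h1, h2⟩ := mul_sqrt_tangent hx hy
  have hs : 0 < √x := sqrt_pos.2 hx
  refine ⟨by simp only [prof]; linarith, fun h => ?_⟩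
  have e : 4 / 3 * (3 / 8 * (y - x) ^ 2 / √x) = (y - x) ^ 2 / (2 * √x) := by
    field_simp
    ring
  have := h2 h
  simp only [prof]
  linarith

/-- The gain of the potential `Γ ρ + s prof` over the two steps of the key inequality. -/
theorem gain_step {Γ C β s ρ D n p : ℝ} (hs : 0 < s) (hρ : 0 < ρ)
    (hp : p = Γ + s * (β - 2 * √ρ)) (hp0 : 0 ≤ p) (hD : 0 ≤ ρ + D) (hps : p * s ≤ ρ)
    (hn : D ^ 2 ≤ n) :
    (Γ * (ρ + D) + s * prof C β (ρ + D)) - n / (2 * s)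
      + (Γ * (ρ - p * s) + s * prof C β (ρ - p * s)) + (p * s) ^ 2 / (2 * s)
    ≤ 2 * (Γ * ρ + s * prof C β ρ) - s ^ 3 * p ^ 2 / (2 * √ρ) := by
  have h1 := mul_le_mul_of_nonneg_left (prof_tangent C β hρ hD).1 hs.le
  have h2 := mul_le_mul_of_nonneg_left
    ((prof_tangent C β hρ (by linarith : 0 ≤ ρ - p * s)).2 (by nlinarith)) hs.le
  have h3 : p * D - n / (2 * s) ≤ p ^ 2 * s / 2 := by
    have h4 : 0 ≤ (D - p * s) ^ 2 / (2 * s) + (n - D ^ 2) / (2 * s) :=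
      add_nonneg (by positivity) (div_nonneg (by linarith) (by positivity))
    have h5 : (D - p * s) ^ 2 / (2 * s) + (n - D ^ 2) / (2 * s)
        = p ^ 2 * s / 2 - (p * D - n / (2 * s)) := by
      field_simp
      ring
    linarith
  have e1 : (ρ - p * s - ρ) ^ 2 / (2 * √ρ) * s = s ^ 3 * p ^ 2 / (2 * √ρ) := by ring
  have e2 : (p * s) ^ 2 / (2 * s) = p ^ 2 * s / 2 := by
    field_simp
  subst hp
  linarith

variable {F : Type*} [NormedAddCommGroup F] [InnerProductSpace ℝ F]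

open scoped RealInnerProductSpace in
/-- The drift of the centre is absorbed by the square in the key inequality. -/
theorem drift_step {s N R V t : ℝ} {y a b : F} (hs : 0 < s) (hN : 0 ≤ N) (hR : 0 < R)
    (hy : ‖y‖ ≤ 2 * R) (ha : ‖a‖ ≤ s * V) (hsN : 16 * (s ^ 2 * N) ≤ R ^ 2) :
    s * N / R ^ 2 * ((‖y + a‖ ^ 2 + (t + s) ^ 2) + (‖y + b‖ ^ 2 + (t - s) ^ 2)
        - 2 * (‖y‖ ^ 2 + t ^ 2))
      ≤ ‖a + b‖ ^ 2 / (4 * s) + s ^ 3 * (64 * N ^ 2 + N * (3 * V ^ 2 + 2)) / R ^ 2 := by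
  set w := ‖a + b‖ with hw
  have hw0 : 0 ≤ w := norm_nonneg _
  have hin : ⟪y, a + b⟫ ≤ 2 * R * w :=
    (real_inner_le_norm y (a + b)).trans (mul_le_mul_of_nonneg_right hy hw0)
  have hb : ‖b‖ ^ 2 ≤ 2 * ‖a‖ ^ 2 + 2 * w ^ 2 := by
    have h : ‖b‖ ≤ w + ‖a‖ := by
      have := norm_sub_le (a + b) a
      rwa [add_sub_cancel_left] at this
    nlinarith [norm_nonneg b, sq_nonneg (w - ‖a‖)]
  have ha2 : ‖a‖ ^ 2 ≤ s ^ 2 * V ^ 2 := by
    rw [← mul_pow]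
    exact pow_le_pow_left₀ (norm_nonneg a) ha 2
  have hX : (‖y + a‖ ^ 2 + (t + s) ^ 2) + (‖y + b‖ ^ 2 + (t - s) ^ 2) - 2 * (‖y‖ ^ 2 + t ^ 2)
      ≤ 4 * R * w + 2 * w ^ 2 + (3 * V ^ 2 + 2) * s ^ 2 := by
    rw [inner_add_right] at hin
    rw [norm_add_sq_real, norm_add_sq_real]
    linarith
  have hc : 0 ≤ s * N / R ^ 2 := by positivity
  refine (mul_le_mul_of_nonneg_left hX hc).trans ?_
  rw [← sub_nonneg]
  have h : 0 ≤ (w - 16 * s ^ 2 * N / R) ^ 2 / (8 * s)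
      + (1 / (8 * s) - 2 * s * N / R ^ 2) * w ^ 2 + 32 * s ^ 3 * N ^ 2 / R ^ 2 := by
    have h1 : 2 * s * N / R ^ 2 ≤ 1 / (8 * s) := by
      rw [div_le_div_iff₀ (by positivity) (by positivity)]
      linarith
    have := mul_nonneg (sub_nonneg.2 h1) (sq_nonneg w)
    have h2 : 0 ≤ (w - 16 * s ^ 2 * N / R) ^ 2 / (8 * s) := by positivity
    have h3 : 0 ≤ 32 * s ^ 3 * N ^ 2 / R ^ 2 := by positivity
    linarith
  refine h.trans (le_of_eq ?_)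
  field_simp
  ring

/-- The square of the logarithm is dominated by the curvature of the profile. -/
theorem log_sq_le {ρ : ℝ} (hρ : 0 < ρ) (hρ3 : ρ ≤ 3) : log ρ ^ 2 ≤ 16 / √ρ := by
  have hs : 0 < √ρ := sqrt_pos.2 hρ
  rcases le_total ρ 1 with h | h
  · have hq : 0 < √(√ρ) := sqrt_pos.2 hs
    have e : log ρ = 4 * log (√(√ρ)) := by
      rw [log_sqrt hs.le, log_sqrt hρ.le]
      ring
    have h1 := one_sub_inv_le_log_of_pos hq
    have h2 : log ρ ≤ 0 := log_nonpos hρ.le h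
    have h3 : 0 ≤ (√(√ρ))⁻¹ := by positivity
    have h4 : (4 * (√(√ρ))⁻¹) ^ 2 = 16 / √ρ := by
      rw [mul_pow, inv_pow, sq_sqrt hs.le]
      ring
    rw [← h4]
    exact sq_le_sq' (by linarith) (by linarith)
  · have h1 : log ρ ≤ 2 := by linarith [log_le_sub_one_of_pos hρ]
    have h2 : 0 ≤ log ρ := log_nonneg h
    have h3 : √ρ ≤ 2 := by
      rw [sqrt_le_iff]
      exact ⟨by norm_num, by linarith⟩
    calc log ρ ^ 2 ≤ 4 := by nlinarith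
      _ ≤ 16 / √ρ := by rw [le_div_iff₀ hs]; linarith

/-- For a large radius the loss of the drift is below the gain of the profile. -/
theorem exists_radius {Γ k : ℝ} (hΓ : 0 < Γ) (hk : 0 ≤ k) :
    ∃ R₀ : ℝ, 1 ≤ R₀ ∧ ∀ R, R₀ ≤ R → ∀ ρ N V : ℝ, 0 < ρ → ρ ≤ 3 → 0 ≤ N →
      N ≤ k * (1 + log R) ^ 2 → 0 ≤ V → V ≤ k * (1 + log R + |log ρ|) →
      (64 * N ^ 2 + N * (3 * V ^ 2 + 2)) / R ^ 2 < Γ ^ 2 / (16 * √ρ) := by
  set K := 128 * k ^ 2 + 108 * k ^ 3 + 4 * k with hK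
  have hK0 : 0 ≤ K := by positivity
  refine ⟨max 1 (4096 * K / Γ ^ 2 + 1), le_max_left _ _, fun R hR ρ N V hρ hρ3 hN0 hN hV0 hV => ?_⟩
  have hR1 : 1 ≤ R := (le_max_left _ _).trans hR
  have hR2 : 4096 * K / Γ ^ 2 < R := by linarith [(le_max_right _ _).trans hR]
  have hsr : 0 < √ρ := sqrt_pos.2 hρ
  have hs2 : √ρ ≤ 2 := by
    rw [sqrt_le_iff]
    exact ⟨by norm_num, by linarith⟩
  have h1 : 1 ≤ 2 / √ρ := by rw [le_div_iff₀ hsr]; linarith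
  set m := 1 + log R with hm_def
  have hm : 1 ≤ m := by linarith [log_nonneg hR1]
  have hm2 : 1 ≤ m ^ 2 := one_le_pow₀ hm
  have hm4 : m ^ 4 ≤ 256 * R := by
    have hq : 0 < √(√R) := by positivity
    have e : log R = 4 * log (√(√R)) := by
      rw [log_sqrt (sqrt_nonneg R), log_sqrt (by linarith : (0 : ℝ) ≤ R)]
      ring
    have h2 := log_le_sub_one_of_pos hq
    have h3 : m ≤ 4 * √(√R) := by rw [hm_def]; linarith
    calc m ^ 4 ≤ (4 * √(√R)) ^ 4 := pow_le_pow_left₀ (by linarith) h3 4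
      _ = 256 * R := by
        rw [show (4 * √(√R)) ^ 4 = 256 * ((√(√R)) ^ 2) ^ 2 by ring, sq_sqrt (sqrt_nonneg R),
          sq_sqrt (by linarith : (0 : ℝ) ≤ R)]
  have hl := log_sq_le hρ hρ3
  have hV2 : V ^ 2 ≤ k ^ 2 * (36 * (m ^ 2 / √ρ)) := by
    have h2 : V ^ 2 ≤ (k * (m + |log ρ|)) ^ 2 := pow_le_pow_left₀ hV0 hV 2
    have h3 : (m + |log ρ|) ^ 2 ≤ 2 * m ^ 2 + 2 * log ρ ^ 2 := by
      nlinarith [sq_nonneg (m - |log ρ|), sq_abs (log ρ)]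
    have h4 : 2 * m ^ 2 + 2 * log ρ ^ 2 ≤ 36 * (m ^ 2 / √ρ) := by
      have h5 : m ^ 2 ≤ 2 * (m ^ 2 / √ρ) := by
        calc m ^ 2 = m ^ 2 * 1 := (mul_one _).symm
          _ ≤ m ^ 2 * (2 / √ρ) := mul_le_mul_of_nonneg_left h1 (sq_nonneg m)
          _ = 2 * (m ^ 2 / √ρ) := by ring
      have h6 : 16 / √ρ ≤ 16 * (m ^ 2 / √ρ) := by
        rw [← mul_div_assoc]
        gcongr
        linarith
      linarith
    calc V ^ 2 ≤ (k * (m + |log ρ|)) ^ 2 := h2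
      _ = k ^ 2 * (m + |log ρ|) ^ 2 := by ring
      _ ≤ k ^ 2 * (36 * (m ^ 2 / √ρ)) :=
        mul_le_mul_of_nonneg_left (h3.trans h4) (sq_nonneg k)
  have hsum : 64 * N ^ 2 + N * (3 * V ^ 2 + 2) ≤ K * (m ^ 4 / √ρ) := by
    have a1 : N ^ 2 ≤ (k * m ^ 2) ^ 2 := pow_le_pow_left₀ hN0 hN 2
    have a2 : N * V ^ 2 ≤ k * m ^ 2 * (k ^ 2 * (36 * (m ^ 2 / √ρ))) :=
      mul_le_mul hN hV2 (sq_nonneg V) (by positivity)
    have a3 : m ^ 2 ≤ m ^ 4 := pow_le_pow_right₀ hm (by norm_num)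
    have a4 : m ^ 4 ≤ 2 * (m ^ 4 / √ρ) := by
      calc m ^ 4 = m ^ 4 * 1 := (mul_one _).symm
        _ ≤ m ^ 4 * (2 / √ρ) := mul_le_mul_of_nonneg_left h1 (by positivity)
        _ = 2 * (m ^ 4 / √ρ) := by ring
    have a5 : k ^ 2 * m ^ 4 ≤ k ^ 2 * (2 * (m ^ 4 / √ρ)) :=
      mul_le_mul_of_nonneg_left a4 (sq_nonneg k)
    have a6 : k * m ^ 2 ≤ k * (2 * (m ^ 4 / √ρ)) :=
      mul_le_mul_of_nonneg_left (a3.trans a4) hk
    have e : k * m ^ 2 * (k ^ 2 * (36 * (m ^ 2 / √ρ))) = 36 * k ^ 3 * (m ^ 4 / √ρ) := by ring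
    rw [hK]
    linarith
  rw [div_lt_div_iff₀ (by positivity) (by positivity)]
  rw [div_lt_iff₀ (by positivity)] at hR2
  have h7 : (64 * N ^ 2 + N * (3 * V ^ 2 + 2)) * √ρ ≤ K * (256 * R) := by
    calc (64 * N ^ 2 + N * (3 * V ^ 2 + 2)) * √ρ ≤ K * (m ^ 4 / √ρ) * √ρ :=
          mul_le_mul_of_nonneg_right hsum hsr.le
      _ = K * m ^ 4 := by field_simp
      _ ≤ K * (256 * R) := mul_le_mul_of_nonneg_left hm4 hK0
  nlinarith [mul_lt_mul_of_pos_left hR2 (by linarith : 0 < R)]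

/-- The slope parameter of the descent. -/
theorem prof_descent {C Λ : ℝ} (hC : 0 ≤ C) (hΛ : 0 ≤ Λ) :
    prof C (Λ + C + 7) 1 = -C ∧
    (∀ ρ, 2 ≤ ρ → ρ ≤ 3 → Λ ≤ prof C (Λ + C + 7) ρ) ∧
    ∀ ρ, 0 ≤ ρ → ρ ≤ 3 → -(Λ + 2 * C + 13) ≤ prof C (Λ + C + 7) ρ := by
  have hs : ∀ ρ : ℝ, 0 ≤ ρ → ρ ≤ 3 → ρ * √ρ ≤ 21 / 4 := fun ρ h0 h3 => by
    have h2 : √ρ ≤ 7 / 4 := by
      rw [sqrt_le_iff]
      exact ⟨by norm_num, by linarith⟩
    calc ρ * √ρ ≤ 3 * (7 / 4) := mul_le_mul h3 h2 (sqrt_nonneg ρ) (by norm_num)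
      _ = 21 / 4 := by norm_num
  refine ⟨by simp [prof], fun ρ h2 h3 => ?_, fun ρ h0 h3 => ?_⟩ <;>
    have := hs ρ (by linarith) h3 <;> simp only [prof]
  · nlinarith
  · nlinarith [mul_nonneg (by linarith : 0 ≤ Λ + C + 7) h0]

/-- The slope parameter of the ascent. -/
theorem prof_ascent {C Λ : ℝ} (hC : 0 ≤ C) (hΛ : 0 ≤ Λ) :
    prof C (-(2 * (Λ + C))) 1 = -C ∧
    (∀ ρ, 0 ≤ ρ → ρ ≤ 1 / 2 → Λ ≤ prof C (-(2 * (Λ + C))) ρ) ∧
    ∀ ρ, 0 ≤ ρ → ρ ≤ 3 → -(4 * Λ + 5 * C + 6) ≤ prof C (-(2 * (Λ + C))) ρ := by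
  refine ⟨by simp [prof], fun ρ h0 h2 => ?_, fun ρ h0 h3 => ?_⟩ <;> simp only [prof]
  · have : ρ * √ρ ≤ 1 := by
      calc ρ * √ρ ≤ 1 * 1 := mul_le_mul (by linarith) (sqrt_le_one.2 (by linarith)) (sqrt_nonneg ρ)
            zero_le_one
        _ = 1 := one_mul 1
    nlinarith
  · have : ρ * √ρ ≤ 21 / 4 := by
      have h2 : √ρ ≤ 7 / 4 := by
        rw [sqrt_le_iff]
        exact ⟨by norm_num, by linarith⟩
      calc ρ * √ρ ≤ 3 * (7 / 4) := mul_le_mul h3 h2 (sqrt_nonneg ρ) (by norm_num)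
        _ = 21 / 4 := by norm_num
    nlinarith

end Vale.Agent.P080.C1.Barrier
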